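import Mathlib

/-
P033 (circulant Hadamard matrices): signed compressions of a sequence with
flat autocorrelation, and the character sum identity.
-/

namespace Vale.Agent.P033

open Finset

/-- An integer sequence on `ZMod n` whose periodic autocorrelation is `c` at shift `0`
and `0` at every other shift. -/
def Flat {n : ℕ} [NeZero n] (f : ZMod n → ℤ) (c : ℤ) : Prop :=
  ∀ s : ZMod n, ∑ j, f j * f (j + s) = if s = 0 then c else 0

/-- The compression of `f` along `φ`, weighted by `χ`. -/
def comp {n d : ℕ} [NeZero n] (φ : ZMod n → ZMod d) (χ : ZMod n → ℤ) (f : ZMod n → ℤ)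
    (x : ZMod d) : ℤ :=
  ∑ j ∈ univ.filter (fun j => φ j = x), χ j * f j

theorem comp_mul {n d : ℕ} [NeZero n] [NeZero d] (φ : ZMod n →+ ZMod d) (χ : ZMod n → ℤ)
    (f : ZMod n → ℤ) (c : ℤ) (hχ : ∀ i j, χ i * χ (i + j) = χ j)
    (hf : Flat f c) : ∀ t : ZMod d,
    ∑ x, comp φ χ f x * comp φ χ f (x + t) = if t = 0 then χ 0 * c else 0 := by
  intro t
  have h1 : ∀ x, comp φ χ f x * comp φ χ f (x + t)
      = ∑ j ∈ univ.filter (fun j => φ j = x),
          ∑ s ∈ univ.filter (fun s => φ s = t), χ s * (f j * f (j + s)) := by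
    intro x
    rw [comp, comp, Finset.sum_mul]
    refine Finset.sum_congr rfl (fun j hj => ?_)
    rw [Finset.mul_sum]
    have hjx : φ j = x := (Finset.mem_filter.mp hj).2
    refine Finset.sum_bij' (fun i _ => i - j) (fun s _ => j + s) ?_ ?_ ?_ ?_ ?_
    · intro i hi
      have hit : φ i = x + t := (Finset.mem_filter.mp hi).2
      simp [map_sub, hit, hjx]
    · intro s hs
      have hst : φ s = t := (Finset.mem_filter.mp hs).2
      simp [map_add, hst, hjx]
    · intro i _; abel
    · intro s _; abel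
    · intro i _
      have hji : j + (i - j) = i := by abel
      have := hχ j (i - j)
      rw [hji] at this
      rw [hji, ← this]
      ring
  rw [Finset.sum_congr rfl (fun x _ => h1 x), Finset.sum_fiberwise (g := fun j => φ j),
    Finset.sum_comm]
  simp only [← Finset.mul_sum]
  rw [Finset.sum_congr rfl (fun s _ => by rw [hf s])]
  simp only [mul_ite, mul_zero]
  rw [Finset.sum_ite_eq']
  simp [eq_comm]

/-- The plain compression of `f` along `φ`. -/
def fold {n d : ℕ} [NeZero n] (φ : ZMod n → ZMod d) (f : ZMod n → ℤ) : ZMod d → ℤ :=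
  comp φ (fun _ => 1) f

theorem Flat.fold {n d : ℕ} [NeZero n] [NeZero d] (φ : ZMod n →+ ZMod d)
    {f : ZMod n → ℤ} {c : ℤ} (hf : Flat f c) : Flat (Vale.Agent.P033.fold φ f) c := by
  intro t
  simpa [Vale.Agent.P033.fold] using comp_mul φ (fun _ => 1) f c (by simp) hf t

theorem Flat.shift {n : ℕ} [NeZero n] {f : ZMod n → ℤ} {c : ℤ} (hf : Flat f c) (a : ZMod n) :
    Flat (fun x => f (x + a)) c := by
  intro s
  have h := Equiv.sum_comp (Equiv.addRight a) (fun j => f j * f (j + s))
  simp only [Equiv.coe_addRight] at h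
  rw [← hf s, ← h]
  refine Finset.sum_congr rfl (fun x _ => ?_)
  simp only [show x + s + a = x + a + s by abel]

theorem Flat.sum_sq {n : ℕ} [NeZero n] {f : ZMod n → ℤ} {c : ℤ} (hf : Flat f c) :
    ∑ j, f j ^ 2 = c := by
  simpa [sq] using hf 0

/-- The character sum of a flat sequence times the one at the inverse character is `c`. -/
theorem Flat.char_mul {n : ℕ} [NeZero n] {f : ZMod n → ℤ} {c : ℤ} (hf : Flat f c)
    {R : Type*} [CommRing R] (ψ : AddChar (ZMod n) R) :
    (∑ x, (f x : R) * ψ x) * (∑ x, (f x : R) * ψ (-x)) = (c : R) := by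
  rw [Finset.sum_mul]
  have h1 : ∀ x : ZMod n, (f x : R) * ψ x * (∑ y, (f y : R) * ψ (-y))
      = ∑ s, (((f x * f (x + s) : ℤ)) : R) * ψ (-s) := by
    intro x
    rw [Finset.mul_sum, ← Equiv.sum_comp (Equiv.addLeft x)]
    refine Finset.sum_congr rfl (fun s _ => ?_)
    simp only [Equiv.coe_addLeft]
    rw [show ψ (-s) = ψ x * ψ (-(x + s)) by rw [← AddChar.map_add_eq_mul]; congr 1; abel]
    push_cast
    ring
  rw [Finset.sum_congr rfl (fun x _ => h1 x), Finset.sum_comm]
  simp only [← Finset.sum_mul, ← Int.cast_sum]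
  rw [Finset.sum_congr rfl (fun s _ => by rw [hf s])]
  simp

end Vale.Agent.P033
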