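import Vale.Agent.P033.Basic

/-
P033: an affine map x -> z x + c with z = 1 modulo every prime, fixing a flat sequence of odd
length m with entries bounded by 2, satisfies phi(m) * orderOf z <= 4 m.
-/

namespace Vale.Agent.P033

open Finset

variable {m : ℕ} [NeZero m]

theorem pow_expand {R : Type*} [CommRing R] (d : R) :
    ∀ k : ℕ, ∃ X : R, (1 + d) ^ k = 1 + (k : R) * d + d ^ 2 * X := by
  intro k
  induction k with
  | zero => exact ⟨0, by simp⟩
  | succ k ih =>
    obtain ⟨X, hX⟩ := ih
    exact ⟨X + (k : R) + d * X, by rw [pow_succ, hX]; push_cast; ring⟩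

theorem geom_expand {R : Type*} [CommRing R] (d : R) :
    ∀ k : ℕ, ∃ X : R, ∑ j ∈ range k, (1 + d) ^ j
      = (k : R) + (∑ j ∈ range k, (j : R)) * d + d ^ 2 * X := by
  intro k
  induction k with
  | zero => exact ⟨0, by simp⟩
  | succ k ih =>
    obtain ⟨X, hX⟩ := ih
    obtain ⟨Y, hY⟩ := pow_expand d k
    refine ⟨X + Y, ?_⟩
    rw [Finset.sum_range_succ, Finset.sum_range_succ, hX, hY]
    push_cast
    ring

theorem dvd_of_forall_prime (d : ZMod m) (hd : ∀ p, p.Prime → p ∣ m → p ∣ d.val) {p : ℕ}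
    (hp : p.Prime) (hpm : p ∣ m) : ∃ e : ZMod m, d = (p : ZMod m) * e := by
  obtain ⟨e, he⟩ := hd p hp hpm
  exact ⟨(e : ZMod m), by rw [← Nat.cast_mul, ← he, ZMod.natCast_zmod_val]⟩

theorem isUnit_add_nil (d : ZMod m) (hd : ∀ p, p.Prime → p ∣ m → p ∣ d.val) {a : ℕ}
    (ha : a.Coprime m) (X : ZMod m) : IsUnit ((a : ZMod m) + d * X) := by
  have hval : (a : ZMod m) + d * X = ((a + d.val * X.val : ℕ) : ZMod m) := by
    push_cast
    rw [ZMod.natCast_zmod_val, ZMod.natCast_zmod_val]
  rw [hval, ZMod.isUnit_iff_coprime]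
  refine Nat.coprime_of_dvd (fun p hp h1 h2 => ?_)
  have h3 : p ∣ d.val * X.val := Dvd.dvd.mul_right (hd p hp h2) _
  have h4 : p ∣ a := (Nat.dvd_add_left h3).mp h1
  exact hp.ne_one (Nat.eq_one_of_dvd_coprimes ha h4 h2)

/-- If `(1 + ... + (1+d)^(p-1)) δ = 0` with `δ ≠ 0` and `d` divisible by every prime of `m`,
then `p δ = 0` and `d δ = 0`. -/
theorem kill_geom (hm : Odd m) (d δ : ZMod m) (hd : ∀ p, p.Prime → p ∣ m → p ∣ d.val)
    {p : ℕ} (hp : p.Prime) (hδ : δ ≠ 0) (h : (∑ j ∈ range p, (1 + d) ^ j) * δ = 0) :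
    d * δ = 0 := by
  obtain ⟨X, hX⟩ := geom_expand d p
  by_cases hpm : p ∣ m
  · obtain ⟨e, he⟩ := dvd_of_forall_prime d hd hp hpm
    have hp2 : p ≠ 2 := by
      rintro rfl
      exact Nat.not_even_iff_odd.mpr hm (even_iff_two_dvd.mpr hpm)
    obtain ⟨k, hk⟩ := hp.odd_of_ne_two hp2
    have hsum : (∑ j ∈ range p, (j : ZMod m)) = (p : ZMod m) * (k : ZMod m) := by
      rw [← Nat.cast_sum, ← Nat.cast_mul]
      congr 1
      have h2 := Finset.sum_range_id_mul_two p
      have : p - 1 = 2 * k := by omega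
      rw [this, ← mul_assoc, mul_comm p 2, mul_assoc] at h2
      omega
    have hfac : ∑ j ∈ range p, (1 + d) ^ j
        = (p : ZMod m) * (((1 : ℕ) : ZMod m) + d * ((k : ZMod m) + e * X)) := by
      rw [hX, hsum]
      push_cast
      rw [he]
      ring
    have hu := isUnit_add_nil d hd (Nat.coprime_one_left m) ((k : ZMod m) + e * X)
    have hpd : (p : ZMod m) * δ = 0 := by
      rw [hfac, mul_comm (p : ZMod m) _, mul_assoc] at h
      exact (hu.mul_right_eq_zero).mp h
    rw [he, mul_comm (p : ZMod m) e, mul_assoc, hpd, mul_zero]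
  · exfalso
    have hu := isUnit_add_nil d hd (hp.coprime_iff_not_dvd.mpr hpm)
      ((∑ j ∈ range p, (j : ZMod m)) + d * X)
    have hfac : ∑ j ∈ range p, (1 + d) ^ j
        = (p : ZMod m) + d * ((∑ j ∈ range p, (j : ZMod m)) + d * X) := by
      rw [hX]; ring
    rw [hfac] at h
    exact hδ (hu.mul_right_eq_zero.mp h)

/-- The affine map `x ↦ z x + c`. -/
def aff (z c : ZMod m) (x : ZMod m) : ZMod m := z * x + c

omit [NeZero m] in
theorem aff_iterate (z c : ZMod m) : ∀ (k : ℕ) (x : ZMod m),
    (aff z c)^[k] x = z ^ k * x + (∑ j ∈ range k, z ^ j) * c := by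
  intro k
  induction k with
  | zero => intro x; simp
  | succ k ih =>
    intro x
    rw [Function.iterate_succ_apply', ih, geom_sum_succ, pow_succ]
    unfold aff
    ring

omit [NeZero m] in
theorem aff_iterate_diff (z c : ZMod m) (k : ℕ) (x y : ZMod m) :
    (aff z c)^[k] x - (aff z c)^[k] y = z ^ k * (x - y) := by
  rw [aff_iterate, aff_iterate]; ring

theorem aff_iterate_mul (z c : ZMod m) (i : ℕ) (x : ZMod m) : ∀ k : ℕ,
    (aff z c)^[i * k] x - x = (∑ j ∈ range k, (z ^ i) ^ j) * ((aff z c)^[i] x - x) := by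
  intro k
  induction k with
  | zero => simp
  | succ k ih =>
    have h1 := aff_iterate_diff z c i ((aff z c)^[i * k] x) x
    rw [← Function.iterate_add_apply, show i + i * k = i * (k + 1) by ring, ih] at h1
    rw [geom_sum_succ]
    linear_combination h1

theorem orbit_sum_zero (hm : Odd m) (z c : ZMod m)
    (hz : ∀ p, p.Prime → p ∣ m → p ∣ (z - 1).val) (x : ZMod m) (hx : z * x + c ≠ x)
    (N : ℕ) (hN : 0 < N) (hper : ∀ y, (aff z c)^[N] y = y)
    {R : Type*} [CommRing R] [IsDomain R] (ψ : AddChar (ZMod m) R)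
    (hψ : ∀ y, ψ y = 1 → y = 0) :
    ∑ l ∈ range N, ψ ((aff z c)^[l] x) = 0 := by
  set T := aff z c with hT
  set L := Function.minimalPeriod T x with hL
  have hperx : x ∈ Function.periodicPts T := ⟨N, hN, hper x⟩
  have hL0 : 0 < L := Function.minimalPeriod_pos_of_mem_periodicPts hperx
  have hL1 : L ≠ 1 := fun h => hx (Function.minimalPeriod_eq_one_iff_isFixedPt.mp h)
  obtain ⟨p, hp, i, hLi⟩ : ∃ p, p.Prime ∧ ∃ i, L = i * p :=
    ⟨L.minFac, Nat.minFac_prime hL1, L / L.minFac, (Nat.div_mul_cancel L.minFac_dvd).symm⟩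
  have hi0 : 0 < i := by
    rcases Nat.eq_zero_or_pos i with h | h
    · subst h; simp at hLi; omega
    · exact h
  have hiL : i < L := by
    rw [hLi]
    exact lt_mul_of_one_lt_right hi0 hp.one_lt
  set δ := T^[i] x - x with hδ
  have hδ0 : δ ≠ 0 := fun h =>
    Function.not_isPeriodicPt_of_pos_of_lt_minimalPeriod hi0.ne' hiL (sub_eq_zero.mp h)
  have hgeom : (∑ j ∈ range p, (z ^ i) ^ j) * δ = 0 := by
    rw [← aff_iterate_mul z c i x p, ← hLi, Function.iterate_minimalPeriod, sub_self]
  obtain ⟨X, hX⟩ : ∃ X, z ^ i - 1 = (z - 1) * X :=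
    ⟨∑ j ∈ range i, z ^ j, (mul_geom_sum z i).symm⟩
  have hd : ∀ q, q.Prime → q ∣ m → q ∣ (z ^ i - 1).val := by
    intro q hq hqm
    rw [hX, ZMod.val_mul]
    exact (Nat.dvd_mod_iff hqm).mpr (Dvd.dvd.mul_right (hz q hq hqm) _)
  rw [show z ^ i = 1 + (z ^ i - 1) by ring] at hgeom
  have hdδ := kill_geom hm _ δ hd hp hδ0 hgeom
  have hzδ : (z - 1) * δ = 0 := by
    have hpδ : (p : ZMod m) * δ = 0 := by
      obtain ⟨Y, hY⟩ := geom_expand (z ^ i - 1) p
      rw [hY] at hgeom
      linear_combination hgeom -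
        ((∑ j ∈ range p, (j : ZMod m)) + (z ^ i - 1) * Y) * hdδ
    by_cases hpm : p ∣ m
    · obtain ⟨e, he⟩ := dvd_of_forall_prime (z - 1) hz hp hpm
      rw [he]; linear_combination e * hpδ
    · exact absurd ((((ZMod.isUnit_iff_coprime p m).mpr
        (hp.coprime_iff_not_dvd.mpr hpm)).mul_right_eq_zero).mp hpδ) hδ0
  have hshift : ∀ l, T^[l + i] x = T^[l] x + δ := by
    intro l
    have hpow : z ^ l * δ = δ := by
      have h1 : z ^ l - 1 = (z - 1) * ∑ j ∈ range l, z ^ j := (mul_geom_sum z l).symm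
      linear_combination δ * h1 + (∑ j ∈ range l, z ^ j) * hzδ
    have h1 := aff_iterate_diff z c l (T^[i] x) x
    rw [← hT, ← Function.iterate_add_apply, ← hδ, hpow] at h1
    linear_combination h1
  set g : ℕ → R := fun l => ψ (T^[l] x) with hg
  have hgper : ∀ l, g (l + N) = g l := fun l => by
    simp only [hg, Function.iterate_add_apply, hper]
  have hcyc : ∀ k, ∑ l ∈ range N, g (l + k) = ∑ l ∈ range N, g l := by
    intro k
    induction k with
    | zero => simp
    | succ k ih =>
      have h1 := Finset.sum_range_succ (fun l => g (l + k)) N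
      have h2 := Finset.sum_range_succ' (fun l => g (l + k)) N
      simp only [zero_add] at h2
      rw [h1, add_comm N k, hgper] at h2
      rw [← ih, Finset.sum_congr rfl (fun l _ => by rw [← add_assoc, add_right_comm])]
      exact (add_right_cancel h2).symm
  have hmul : (ψ δ - 1) * ∑ l ∈ range N, g l = 0 := by
    rw [sub_mul, one_mul, Finset.mul_sum, sub_eq_zero]
    refine Eq.trans (Finset.sum_congr rfl (fun l _ => ?_)) (hcyc i)
    simp only [hg, hshift, AddChar.map_add_eq_mul]
    ring
  rcases mul_eq_zero.mp hmul with h | h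
  · exact absurd (hψ δ (sub_eq_zero.mp h)) hδ0
  · exact h

/-- The fixed set of `x ↦ z x + c` times the order of `z` is at most `m`. -/
theorem card_fixed_mul_orderOf (z c : ZMod m) :
    (univ.filter (fun x : ZMod m => z * x + c = x)).card * orderOf z ≤ m := by
  set f : ZMod m → ZMod m := fun x => (z - 1) * x with hf
  have hfib : ∀ b ∈ univ.image f, (univ.filter (fun x => f x = b)).card
      = (univ.filter (fun x => f x = 0)).card := by
    intro b hb
    obtain ⟨x0, -, rfl⟩ := Finset.mem_image.mp hb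
    refine Finset.card_bij' (fun x _ => x - x0) (fun x _ => x + x0) ?_ ?_ ?_ ?_
    · intro x hx
      simp only [hf, Finset.mem_filter, Finset.mem_univ, true_and] at hx ⊢
      rw [mul_sub, hx, sub_self]
    · intro x hx
      simp only [hf, Finset.mem_filter, Finset.mem_univ, true_and] at hx ⊢
      rw [mul_add, hx, zero_add]
    · intro x _; simp
    · intro x _; simp
  have htot : m = (univ.image f).card * (univ.filter (fun x => f x = 0)).card := by
    have h := Finset.card_eq_sum_card_image f (univ : Finset (ZMod m))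
    rw [Finset.card_univ, ZMod.card, Finset.sum_congr rfl hfib, Finset.sum_const,
      smul_eq_mul] at h
    exact h
  have hfix : (univ.filter (fun x : ZMod m => z * x + c = x)).card
      ≤ (univ.filter (fun x => f x = 0)).card := by
    rcases (univ.filter (fun x : ZMod m => z * x + c = x)).eq_empty_or_nonempty with h | ⟨x0, hx0⟩
    · simp [h]
    refine Finset.card_le_card_of_injOn (fun x => x - x0) ?_ (sub_left_injective.injOn)
    intro x hx
    simp only [Finset.coe_filter, Finset.mem_univ, true_and, Set.mem_ofPred_eq,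
      Finset.mem_filter] at hx hx0 ⊢
    simp only [hf]
    linear_combination hx - hx0
  have hord : orderOf z ≤ (univ.image f).card := by
    rw [← Finset.card_range (orderOf z)]
    refine Finset.card_le_card_of_injOn (fun k => z ^ k - 1) ?_ ?_
    · intro k _
      simp only [Finset.coe_image, Finset.coe_univ, Set.image_univ, Set.mem_range, hf]
      exact ⟨∑ j ∈ range k, z ^ j, mul_geom_sum z k⟩
    · intro a ha b hb hab
      exact pow_injOn_Iio_orderOf (by simpa using ha) (by simpa using hb) (sub_left_injective hab)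
  calc _ ≤ (univ.filter (fun x => f x = 0)).card * (univ.image f).card :=
        Nat.mul_le_mul hfix hord
    _ = m := by rw [mul_comm]; exact htot.symm

/-- Parseval on the primitive characters. -/
theorem totient_mul_orderOf_le (hm : Odd m) (v : ZMod m → ℤ) (hv : Flat v (m : ℤ))
    (hvb : ∀ x, |v x| ≤ 2) (z c : ZMod m) (hz : ∀ p, p.Prime → p ∣ m → p ∣ (z - 1).val)
    (hinv : ∀ x, v (z * x + c) = v x) : m.totient * orderOf z ≤ 4 * m := by
  set Fix := univ.filter (fun x : ZMod m => z * x + c = x) with hFix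
  have hζ := Complex.isPrimitiveRoot_exp m (NeZero.ne m)
  set ζ := Complex.exp (2 * Real.pi * Complex.I / (m : ℂ))
  let ψ : AddChar (ZMod m) ℂ := AddChar.zmodChar _ hζ.pow_eq_one
  have hψprim : ψ.IsPrimitive := AddChar.zmodChar_primitive_of_primitive_root m hζ
  have hψ1 : ∀ y, ψ y = 1 → y = 0 := by
    intro y h
    rw [AddChar.zmodChar_apply, ← pow_zero ζ] at h
    exact (ZMod.val_eq_zero y).mp (hζ.pow_inj (ZMod.val_lt y) (NeZero.pos m) h)
  set w : ZMod m → ℤ := fun x => if z * x + c = x then v x else 0 with hw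
  set S : ZMod m → ℂ := fun a => ∑ x, (v x : ℂ) * ψ (a * x) with hS
  set U : ZMod m → ℂ := fun a => ∑ x, (w x : ℂ) * ψ (a * x) with hU
  -- the periodicity
  have hzu : IsUnit z := by
    have h := isUnit_add_nil (z - 1) hz (Nat.coprime_one_left m) 1
    simpa using h
  have hbij : Function.Bijective (aff z c) := by
    refine Finite.injective_iff_bijective.mp (fun a b h => hzu.mul_left_cancel ?_)
    exact add_right_cancel h
  set e := Equiv.ofBijective _ hbij with he
  set N := orderOf e with hN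
  have hN0 : 0 < N := orderOf_pos e
  have hiter : ∀ (k : ℕ) (x : ZMod m), (e ^ k) x = (aff z c)^[k] x := by
    intro k x
    rw [Equiv.Perm.coe_pow]
    rfl
  have hper : ∀ y, (aff z c)^[N] y = y := by
    intro y; rw [← hiter, hN, pow_orderOf_eq_one]; rfl
  have hvit : ∀ (k : ℕ) (x : ZMod m), v ((aff z c)^[k] x) = v x := by
    intro k
    induction k with
    | zero => simp
    | succ k ih => intro x; rw [Function.iterate_succ_apply']; exact (hinv _).trans (ih x)
  -- primitive characters only see the fixed set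
  have hSU : ∀ a, IsUnit a → S a = U a := by
    intro a ha
    have h1 : ∀ l ∈ range N, S a = ∑ x, (v x : ℂ) * ψ.mulShift a ((aff z c)^[l] x) := by
      intro l _
      rw [hS]
      simp only
      rw [← Equiv.sum_comp (e ^ l)]
      simp only [hiter, hvit, AddChar.mulShift_apply]
    have h2 : (N : ℂ) * S a = (N : ℂ) * U a := by
      rw [← nsmul_eq_mul, ← Finset.card_range N, ← Finset.sum_const, Finset.sum_congr rfl h1,
        Finset.sum_comm, hU, Finset.mul_sum]
      refine Finset.sum_congr rfl (fun x _ => ?_)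
      rw [← Finset.mul_sum, hw]
      by_cases hx : z * x + c = x
      · have : ∀ l : ℕ, (aff z c)^[l] x = x := fun l => Function.iterate_fixed hx l
        simp [this, hx, AddChar.mulShift_apply]
        ring
      · rw [orbit_sum_zero hm z c hz x hx N hN0 hper (ψ.mulShift a) (fun y hy => by
          rw [AddChar.mulShift_apply] at hy
          exact ha.mul_right_eq_zero.mp (hψ1 _ hy))]
        simp [hx]
    exact mul_left_cancel₀ (by exact_mod_cast hN0.ne') h2
  -- norms
  have hnorm : ∀ (f : ZMod m → ℤ) (a : ZMod m),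
      (∑ x, (f x : ℂ) * ψ (a * x)) * (∑ x, (f x : ℂ) * ψ (a * -x))
        = (Complex.normSq (∑ x, (f x : ℂ) * ψ (a * x)) : ℂ) := by
    intro f a
    rw [Complex.normSq_eq_conj_mul_self, mul_comm (starRingEnd ℂ _)]
    congr 1
    rw [map_sum]
    refine Finset.sum_congr rfl (fun x _ => ?_)
    rw [map_mul (starRingEnd ℂ), mul_neg, AddChar.map_neg_eq_conj, map_intCast]
  have hunit : ∀ a, IsUnit a → Complex.normSq (U a) = (m : ℝ) := by
    intro a ha
    have h := hv.char_mul (ψ.mulShift a)
    simp only [AddChar.mulShift_apply] at h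
    rw [hnorm] at h
    rw [← hSU a ha]
    have h' : (Complex.normSq (S a) : ℂ) = ((m : ℝ) : ℂ) := by rw [hS]; simpa using h
    exact_mod_cast h'
  have hparC : ∑ a, (Complex.normSq (U a) : ℂ) = (m : ℂ) * ∑ x, (w x : ℂ) ^ 2 := by
    simp only [hU, ← hnorm, Finset.sum_mul, Finset.mul_sum]
    rw [Finset.sum_comm]
    refine Finset.sum_congr rfl (fun x _ => ?_)
    rw [Finset.sum_comm]
    have : ∀ y, ∑ a, (w y : ℂ) * ψ (a * y) * ((w x : ℂ) * ψ (a * -x))
        = (w y : ℂ) * (w x : ℂ) * if y = x then (m : ℂ) else 0 := by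
      intro y
      rw [Finset.sum_congr rfl (fun a _ => mul_mul_mul_comm _ (ψ (a * y)) _ (ψ (a * -x)))]
      simp only [← AddChar.map_add_eq_mul, ← mul_add, ← sub_eq_add_neg]
      rw [← Finset.mul_sum, AddChar.sum_mulShift _ hψprim]
      simp [sub_eq_zero, ZMod.card]
    rw [Finset.sum_congr rfl (fun y _ => this y)]
    simp
    ring
  have hpar : ∑ a, Complex.normSq (U a) = (m : ℝ) * ∑ x, (w x : ℝ) ^ 2 := by
    exact_mod_cast hparC
  have hlow : (m.totient : ℝ) * m ≤ ∑ a, Complex.normSq (U a) := by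
    have hc : (univ.filter (fun a : ZMod m => IsUnit a)).card = m.totient := by
      rw [← ZMod.card_units_eq_totient m, ← Fintype.card_subtype]
      exact Fintype.card_congr
        { toFun := fun a => a.2.unit
          invFun := fun a => ⟨a, a.isUnit⟩
          left_inv := fun a => Subtype.ext a.2.unit_spec
          right_inv := fun a => Units.ext a.isUnit.unit_spec }
    refine le_trans (le_of_eq ?_) (Finset.sum_le_univ_sum_of_nonneg
      (fun a => Complex.normSq_nonneg (U a)) (s := univ.filter (fun a => IsUnit a)))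
    rw [Finset.sum_congr rfl (fun a ha => hunit a (Finset.mem_filter.mp ha).2), Finset.sum_const,
      nsmul_eq_mul, hc]
  have hup : ∑ x, (w x : ℝ) ^ 2 ≤ 4 * (Fix.card : ℝ) := by
    have : ∑ x, w x ^ 2 ≤ 4 * (Fix.card : ℤ) := by
      calc ∑ x, w x ^ 2 = ∑ x ∈ Fix, v x ^ 2 := by
            rw [hFix, Finset.sum_filter]
            exact Finset.sum_congr rfl (fun x _ => by simp only [hw]; split_ifs <;> simp)
        _ ≤ Fix.card • (4 : ℤ) := Finset.sum_le_card_nsmul _ _ _ (fun x _ => by
            have := sq_le_sq' (abs_le.mp (hvb x)).1 (abs_le.mp (hvb x)).2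
            linarith)
        _ = 4 * (Fix.card : ℤ) := by rw [nsmul_eq_mul]; ring
    exact_mod_cast this
  have hmpos : (0 : ℝ) < m := by exact_mod_cast NeZero.pos m
  have hφ : m.totient ≤ 4 * Fix.card := by
    have h1 : (m.totient : ℝ) * m ≤ 4 * (Fix.card : ℝ) * m :=
      calc _ ≤ (m : ℝ) * ∑ x, (w x : ℝ) ^ 2 := hpar ▸ hlow
        _ ≤ (m : ℝ) * (4 * (Fix.card : ℝ)) := mul_le_mul_of_nonneg_left hup hmpos.le
        _ = _ := by ring
    exact_mod_cast le_of_mul_le_mul_right h1 hmpos
  calc m.totient * orderOf z ≤ 4 * Fix.card * orderOf z := Nat.mul_le_mul_right _ hφ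
    _ ≤ 4 * m := by
        rw [mul_assoc]
        exact Nat.mul_le_mul_left _ (card_fixed_mul_orderOf z c)

end Vale.Agent.P033
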