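import Vale.Agent.P033.Main
import Vale.Agent.P033.Multiplier

/-
P033: the multiplier bound for the 4-compression of a circulant Hadamard first row.
-/

namespace Vale.Agent.P033

open Finset

theorem multiplier_compression {n : ℕ} [NeZero n] (h : ZMod n → ℤ)
    (hh : ∀ j, h j = 1 ∨ h j = -1)
    (hP : ∀ s : ZMod n, s ≠ 0 → ∑ j, h j * h (j + s) = 0)
    (t c : ZMod (n / 4)) (e : ℕ)
    (hV : ∀ x : ZMod (n / 4),
      (∑ j ∈ univ.filter (fun j : ZMod n => (j.val : ZMod (n / 4)) = t * x + c), h j)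
        = ∑ j ∈ univ.filter (fun j : ZMod n => (j.val : ZMod (n / 4)) = x), h j)
    (hz : ∀ p, p.Prime → p ∣ n / 4 → p ∣ (t ^ e - 1).val)
    (hbig : 4 * (n / 4) < (n / 4).totient * orderOf (t ^ e)) : n = 1 ∨ n = 4 := by
  obtain ⟨hf, rfl | ⟨u, hu⟩⟩ := order_cases h hh hP
  · exact Or.inl rfl
  exfalso
  have hm : n / 4 = u ^ 2 := by rw [hu]; omega
  have : NeZero (n / 4) := ⟨by
    intro h0
    have := NeZero.ne n
    omega⟩
  have hnm : n = n / 4 * 4 := by omega
  have hd : n / 4 ∣ n := ⟨4, hnm⟩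
  have huodd : Odd u := flat_odd hu h hf (fun j => by
    rcases hh j with r | r <;> rw [r] <;> decide)
  set φ := ZMod.castHom hd (ZMod (n / 4)) with hφ
  set V := fold φ h with hVdef
  have hVflat : Flat V (4 * ((n / 4 : ℕ) : ℤ)) := by
    rw [show (4 : ℤ) * ((n / 4 : ℕ) : ℤ) = (n : ℤ) by omega]
    exact hf.fold φ.toAddMonoidHom
  have hsum : ∀ y, ∃ r : ℤ, |r| ≤ 2 ∧ V y = 2 * r := by
    intro y
    obtain ⟨p, q, hp, hq, hp', hq'⟩ := four_signs
      (hh ((y.val + n / 4 * 0 : ℕ) : ZMod n)) (hh ((y.val + n / 4 * 1 : ℕ) : ZMod n))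
      (hh ((y.val + n / 4 * 2 : ℕ) : ZMod n)) (hh ((y.val + n / 4 * 3 : ℕ) : ZMod n))
    refine ⟨p + q, abs_le.mpr ⟨by omega, by omega⟩, ?_⟩
    rw [hVdef, fold_eq_sum_range hnm hd]
    simp only [Finset.sum_range_succ, Finset.sum_range_zero]
    linarith
  choose v hv hVv using hsum
  have hfold : ∀ y, V y
      = ∑ j ∈ univ.filter (fun j : ZMod n => (j.val : ZMod (n / 4)) = y), h j := by
    intro y
    rw [hVdef, hφ]
    unfold fold comp
    simp only [one_mul, ZMod.castHom_apply, ZMod.cast_eq_val]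
  have hinv : ∀ x, v (t * x + c) = v x := fun x => by
    have h1 : V (t * x + c) = V x := by rw [hfold, hfold]; exact hV x
    rw [hVv, hVv] at h1
    exact mul_left_cancel₀ two_ne_zero h1
  have hit : ∀ (k : ℕ) (x : ZMod (n / 4)), v ((aff t c)^[k] x) = v x := by
    intro k
    induction k with
    | zero => simp
    | succ k ih => intro x; rw [Function.iterate_succ_apply']; exact (hinv _).trans (ih x)
  have hmain := totient_mul_orderOf_le (hm ▸ huodd.pow) v (hVflat.half hVv) hv (t ^ e)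
    ((∑ j ∈ range e, t ^ j) * c) hz (fun x => by rw [← aff_iterate]; exact hit e x)
  omega

end Vale.Agent.P033
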