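import Vale.Agent.P033.Basic

/-
P033: the fibres of the reduction ZMod n -> ZMod d written as arithmetic progressions.
-/

namespace Vale.Agent.P033

open Finset

theorem comp_eq_sum_range {n d M : ℕ} [NeZero n] [NeZero d] (hn : n = d * M) (hd : d ∣ n)
    (χ f : ZMod n → ℤ) (y : ZMod d) :
    comp (ZMod.castHom hd (ZMod d)) χ f y
      = ∑ i ∈ range M, χ ((y.val + d * i : ℕ) : ZMod n) * f ((y.val + d * i : ℕ) : ZMod n) := by
  have hy : y.val < d := ZMod.val_lt y
  have hd0 : 0 < d := NeZero.pos d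
  have hlt : ∀ i < M, y.val + d * i < n := fun i hi => by
    have : d * (i + 1) ≤ d * M := Nat.mul_le_mul le_rfl hi
    rw [hn]; nlinarith
  have hmod : ∀ j : ZMod n, ZMod.castHom hd (ZMod d) j = y → y.val + d * (j.val / d) = j.val := by
    intro j hj
    have h1 : y.val = j.val % d := by
      rw [← hj, ZMod.castHom_apply, ZMod.cast_eq_val, ZMod.val_natCast]
    rw [h1]; exact Nat.mod_add_div _ _
  refine Finset.sum_nbij' (fun j => j.val / d) (fun i => ((y.val + d * i : ℕ) : ZMod n))
    ?_ ?_ ?_ ?_ ?_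
  · intro j _
    exact mem_range.mpr (Nat.div_lt_of_lt_mul (hn ▸ ZMod.val_lt j))
  · intro i _
    refine Finset.mem_filter.mpr ⟨Finset.mem_univ _, ?_⟩
    rw [map_natCast, Nat.cast_add, ZMod.natCast_zmod_val, Nat.cast_mul, ZMod.natCast_self,
      zero_mul, add_zero]
  · intro j hj
    rw [hmod j (Finset.mem_filter.mp hj).2, ZMod.natCast_zmod_val]
  · intro i hi
    rw [ZMod.val_cast_of_lt (hlt i (mem_range.mp hi)), Nat.add_mul_div_left _ _ hd0,
      Nat.div_eq_of_lt hy, zero_add]
  · intro j hj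
    rw [hmod j (Finset.mem_filter.mp hj).2, ZMod.natCast_zmod_val]

theorem fold_eq_sum_range {n d M : ℕ} [NeZero n] [NeZero d] (hn : n = d * M) (hd : d ∣ n)
    (f : ZMod n → ℤ) (y : ZMod d) :
    fold (ZMod.castHom hd (ZMod d)) f y
      = ∑ i ∈ range M, f ((y.val + d * i : ℕ) : ZMod n) := by
  rw [fold, comp_eq_sum_range hn hd]
  simp

theorem odd_sum_of_odd {M : ℕ} (hM : Odd M) (g : ℕ → ℤ) (hg : ∀ i, Odd (g i)) :
    Odd (∑ i ∈ range M, g i) := by
  induction M using Nat.twoStepInduction with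
  | zero => simp at hM
  | one => simpa using hg 0
  | more k ih _ =>
    rw [Finset.sum_range_succ, Finset.sum_range_succ, add_assoc]
    exact (ih (by simpa [parity_simps] using hM)).add_even ((hg _).add_odd (hg _))

end Vale.Agent.P033
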