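import Vale.Agent.P033.Basic

/-
P033: the finite check for length nine.
-/

namespace Vale.Agent.P033

open Finset

/-- The sequence of length nine with the nine given values. -/
def vecNine (a b c d e f g h i : ℤ) : ZMod 9 → ℤ := fun x => ![a, b, c, d, e, f, g, h, i] x

theorem nine_sym : ∀ z ∈ [(1 : ℤ), -1], ∀ a ∈ [(0 : ℤ), 2, -2], ∀ b ∈ [(0 : ℤ), 2, -2],
    ∀ c ∈ [(0 : ℤ), 2, -2], ∀ d ∈ [(0 : ℤ), 2, -2],
    (∀ s : ZMod 9, ∑ j, vecNine z a b c d d c b a j * vecNine z a b c d d c b a (j + s)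
      = if s = 0 then 9 else 0) → a = 0 ∧ b = 0 ∧ c ≠ 0 ∧ d = 0 := by
  decide +kernel

theorem nine_signed : ∀ z ∈ [(1 : ℤ), -1], ∀ a ∈ [(0 : ℤ), 2, -2], ∀ b ∈ [(0 : ℤ), 2, -2],
    ∀ c ∈ [(0 : ℤ), 2, -2], ∀ d ∈ [(0 : ℤ), 2, -2], ∀ e ∈ [(0 : ℤ), 2, -2],
    ∀ g ∈ [(0 : ℤ), 2, -2],
    ¬ ∀ s : ZMod 9, ∑ j, vecNine z a b 0 c d 0 e g j * vecNine z a b 0 c d 0 e g (j + s)
      = if s = 0 then 9 else 0 := by
  decide +kernel

theorem eq_vecNine (w : ZMod 9 → ℤ) :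
    w = vecNine (w 0) (w 1) (w 2) (w 3) (w 4) (w 5) (w 6) (w 7) (w 8) := by
  funext x
  fin_cases x <;> rfl

/-- No pair of flat sequences of length nine is the pair of compressions of a symmetric
sign sequence. -/
theorem nine_pair (v w : ZMod 9 → ℤ) (hv : Flat v 9) (hw : Flat w 9)
    (hsym : ∀ x, v (-x) = v x) (hv0 : v 0 = 1 ∨ v 0 = -1)
    (hvx : ∀ x, x ≠ 0 → v x = 0 ∨ v x = 2 ∨ v x = -2)
    (hadd : ∀ x, v x + w x = 0 ∨ v x + w x = 2 ∨ v x + w x = -2)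
    (hsub : ∀ x, v x - w x = 0 ∨ v x - w x = 2 ∨ v x - w x = -2) : False := by
  have e8 : v 8 = v 1 := hsym 1
  have e7 : v 7 = v 2 := hsym 2
  have e6 : v 6 = v 3 := hsym 3
  have e5 : v 5 = v 4 := hsym 4
  have hvec := eq_vecNine v
  rw [e5, e6, e7, e8] at hvec
  have hm : ∀ x, x ≠ 0 → v x ∈ [(0 : ℤ), 2, -2] := fun x hx => by simpa using hvx x hx
  obtain ⟨h1, h2, h3, h4⟩ := nine_sym (v 0) (by simpa using hv0) (v 1) (hm 1 (by decide))
    (v 2) (hm 2 (by decide)) (v 3) (hm 3 (by decide)) (v 4) (hm 4 (by decide))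
    (by rw [← hvec]; exact hv)
  have hz : ∀ x, v x = 0 → w x ∈ [(0 : ℤ), 2, -2] := fun x hx => by
    have := hadd x
    rw [hx, zero_add] at this
    simpa using this
  have h3' : v 3 = 2 ∨ v 3 = -2 := (hvx 3 (by decide)).resolve_left h3
  have w3 : w 3 = 0 := by have := hadd 3; have := hsub 3; omega
  have w6 : w 6 = 0 := by have := hadd 6; have := hsub 6; omega
  have wv := eq_vecNine w
  rw [w3, w6] at wv
  refine nine_signed (w 0) ?_ (w 1) (hz 1 h1) (w 2) (hz 2 h2) (w 4) (hz 4 h4)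
    (w 5) (hz 5 (e5.trans h4)) (w 7) (hz 7 (e7.trans h2)) (w 8) (hz 8 (e8.trans h1))
    (by rw [← wv]; exact hw)
  have := hadd 0
  have := hsub 0
  simp only [List.mem_cons, List.not_mem_nil, or_false]
  omega

end Vale.Agent.P033
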