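import Mathlib

/-
P033: two facts about roots of unity in the complex numbers: Galois invariance of integer
relations and the sum of the primitive roots.
-/

namespace Vale.Agent.P033

open Finset Polynomial

theorem aeval_eq_zero_of_conjugate {d : ℕ} (hd : 0 < d) {z w : ℂ} (hz : IsPrimitiveRoot z d)
    (hw : IsPrimitiveRoot w d) (P : ℤ[X]) (h : aeval z P = 0) : aeval w P = 0 := by
  have hint : IsIntegral ℤ z := hz.isIntegral hd
  have hdvd : cyclotomic d ℤ ∣ P := by
    rw [Polynomial.cyclotomic_eq_minpoly hz hd]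
    exact minpoly.isIntegrallyClosed_dvd hint h
  obtain ⟨Q, rfl⟩ := hdvd
  have h0 : aeval w (cyclotomic d ℤ) = 0 := by
    rw [Polynomial.cyclotomic_eq_minpoly hw hd]
    exact minpoly.aeval ℤ w
  rw [map_mul, h0, zero_mul]

theorem sum_nthRoots_one {n : ℕ} (hn : 0 < n) :
    ∑ z ∈ nthRootsFinset n (1 : ℂ), z = if n = 1 then 1 else 0 := by
  have : NeZero n := ⟨hn.ne'⟩
  set ζ := Complex.exp (2 * Real.pi * Complex.I / n)
  have hζ : IsPrimitiveRoot ζ n := Complex.isPrimitiveRoot_exp n hn.ne'
  have himg : nthRootsFinset n (1 : ℂ) = (range n).image (fun i => ζ ^ i) := by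
    ext z
    rw [mem_nthRootsFinset hn, Finset.mem_image]
    constructor
    · intro hz
      obtain ⟨i, hi, rfl⟩ := hζ.eq_pow_of_pow_eq_one hz
      exact ⟨i, Finset.mem_range.mpr hi, rfl⟩
    · rintro ⟨i, _, rfl⟩
      rw [← pow_mul, mul_comm, pow_mul, hζ.pow_eq_one, one_pow]
  rw [himg, Finset.sum_image (fun i hi j hj h => hζ.pow_inj (mem_range.mp hi) (mem_range.mp hj) h)]
  split_ifs with h1
  · subst h1; simp
  · exact hζ.geom_sum_eq_zero (by omega)

theorem sum_primitive_eq_moebius {n : ℕ} (hn : 0 < n) :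
    ∑ z ∈ primitiveRoots n ℂ, z = (ArithmeticFunction.moebius n : ℂ) := by
  have key := (ArithmeticFunction.sum_eq_iff_sum_smul_moebius_eq
    (f := fun k => ∑ z ∈ primitiveRoots k ℂ, z)
    (g := fun k => if k = 1 then (1 : ℂ) else 0)).mp ?_ n hn
  · rw [← key]
    rw [Finset.sum_eq_single (n, 1)]
    · simp
    · rintro ⟨a, b⟩ hab hne
      have hab' := (Nat.mem_divisorsAntidiagonal.mp hab).1
      have hb : b ≠ 1 := by
        rintro rfl
        simp only [mul_one] at hab'
        exact hne (by rw [hab'])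
      simp [hb]
    · intro h
      exact absurd (Nat.mem_divisorsAntidiagonal.mpr ⟨mul_one n, hn.ne'⟩) h
  · intro k hk
    rw [← sum_nthRoots_one hk]
    have : NeZero k := ⟨hk.ne'⟩
    have hbU := IsPrimitiveRoot.nthRoots_one_eq_biUnion_primitiveRoots (R := ℂ) (n := k)
    rw [hbU, Finset.sum_biUnion]
    intro a _ b _ hne
    exact IsPrimitiveRoot.disjoint hne

theorem card_squarefree_divisors_le {m : ℕ} (hm : m ≠ 0) :
    (m.divisors.filter Squarefree).card ≤ 2 ^ m.primeFactors.card := by
  rw [← Finset.card_powerset]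
  refine Finset.card_le_card_of_injOn (fun d => d.primeFactors) ?_ ?_
  · intro d hd
    simp only [Finset.coe_filter, Set.mem_ofPred_eq, Nat.mem_divisors] at hd
    simp only [Finset.coe_powerset, Set.mem_preimage, Set.mem_powerset_iff, Finset.coe_subset]
    exact Nat.primeFactors_mono hd.1.1 hm
  · intro a ha b hb hab
    simp only [Finset.coe_filter, Set.mem_ofPred_eq] at ha hb
    rw [← Nat.prod_primeFactors_of_squarefree ha.2, ← Nat.prod_primeFactors_of_squarefree hb.2]
    simp only at hab
    rw [hab]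

end Vale.Agent.P033
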