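import Vale.Agent.P033.Basic
import Vale.Agent.P033.Roots

/-
P033: a symmetric flat sequence of odd length u^2 with odd central value and all other values
in {0, 2, -2} has u equal to 1 or 3.
-/

namespace Vale.Agent.P033

open Finset Polynomial

theorem even_sum_sub_fixed {α : Type*} [Fintype α] [DecidableEq α] (σ : α → α) (g : α → ℤ)
    (hσ : ∀ x, σ (σ x) = x) (hg : ∀ x, g (σ x) = g x) (p : α) (hp : ∀ x, σ x = x ↔ x = p) :
    Even (∑ x, g x - g p) := by
  rw [← Finset.sum_erase_add _ _ (Finset.mem_univ p), add_sub_cancel_right,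
    Int.even_iff, ← Int.dvd_iff_emod_eq_zero]
  refine (ZMod.intCast_zmod_eq_zero_iff_dvd _ 2).mp ?_
  push_cast
  refine Finset.sum_involution (fun x _ => σ x) ?_ ?_ ?_ ?_
  · intro x _; rw [hg]; exact CharTwo.add_self_eq_zero _
  · intro x hx _ h
    exact (Finset.mem_erase.mp hx).1 ((hp x).mp h)
  · intro x hx
    refine Finset.mem_erase.mpr ⟨fun h => (Finset.mem_erase.mp hx).1 ?_, Finset.mem_univ _⟩
    rw [← hσ x, h, (hp p).mpr rfl]
  · intro x _; exact hσ x

theorem parity {m : ℕ} [NeZero m] (hm : Odd m) (v : ZMod m → ℤ) (hv : Flat v (m : ℤ))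
    (hsym : ∀ x, v (-x) = v x) : Odd (v 0) ∧ ∀ x, x ≠ 0 → Even (v x) := by
  have h2 : IsUnit (2 : ZMod m) := by
    have := (ZMod.isUnit_iff_coprime 2 m).mpr (Nat.coprime_two_left.mpr hm)
    simpa using this
  have hfix : ∀ x c : ZMod m, -x - 2 * c = x ↔ x = -c := by
    intro x c
    constructor
    · intro h
      have : 2 * (x + c) = 2 * 0 := by linear_combination -h
      linear_combination h2.mul_left_cancel this
    · rintro rfl; ring
  constructor
  · have h := even_sum_sub_fixed (fun x : ZMod m => -x) (fun x => v x ^ 2) (fun x => neg_neg x)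
      (fun x => by simp [hsym]) 0 (fun x => by simpa using hfix x 0)
    rw [hv.sum_sq, Int.even_sub] at h
    rw [← Int.not_even_iff_odd]
    intro he
    have h1 : Even (m : ℤ) := h.mpr (by simp [parity_simps, he])
    rw [Int.even_coe_nat] at h1
    exact Nat.not_even_iff_odd.mpr hm h1
  · intro x hx
    have hx2 : 2 * x ≠ 0 := fun h => hx (h2.mul_left_cancel (h.trans (mul_zero 2).symm))
    have h := even_sum_sub_fixed (fun j : ZMod m => -j - 2 * x)
      (fun j => v j * v (j + 2 * x)) (fun j => by ring)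
      (fun j => by
        rw [show -j - 2 * x + 2 * x = -j by ring, hsym j,
          show -j - 2 * x = -(j + 2 * x) by ring, hsym, mul_comm])
      (-x) (fun j => hfix j x)
    rw [hv (2 * x), if_neg hx2] at h
    simp only [zero_sub, even_neg, show -x + 2 * x = x by ring, hsym] at h
    exact (Int.even_mul.mp h).elim id id

/-- The main bound: `u ≤ 2^(ω+1) - 1`. -/
theorem symmetric_flat_bound {m u : ℕ} [NeZero m] (hm : m = u ^ 2) (v : ZMod m → ℤ)
    (hv : Flat v (m : ℤ)) (hsym : ∀ x, v (-x) = v x) (hv0 : |v 0| ≤ 1)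
    (hvx : ∀ x, |v x| ≤ 2) : u + 1 ≤ 2 * 2 ^ m.primeFactors.card := by
  have hu0 : (u : ℂ) ≠ 0 := by
    intro h
    have : u = 0 := by exact_mod_cast h
    exact NeZero.ne m (by simp [hm, this])
  have hζ := Complex.isPrimitiveRoot_exp m (NeZero.ne m)
  set ζ := Complex.exp (2 * Real.pi * Complex.I / (m : ℂ))
  let ψ : AddChar (ZMod m) ℂ := AddChar.zmodChar _ hζ.pow_eq_one
  have hψprim : ψ.IsPrimitive := AddChar.zmodChar_primitive_of_primitive_root m hζ
  set S : ZMod m → ℂ := fun a => ∑ x, (v x : ℂ) * ψ (a * x) with hS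
  have hS2 : ∀ a, S a = u ∨ S a = -u := by
    intro a
    have h := hv.char_mul (ψ.mulShift a)
    simp only [AddChar.mulShift_apply] at h
    have h' : ∑ x, (v x : ℂ) * ψ (a * -x) = S a := by
      rw [← Equiv.sum_comp (Equiv.neg (ZMod m))]
      simp [hS, hsym]
    rw [h'] at h
    change S a * S a = ((m : ℤ) : ℂ) at h
    rw [Int.cast_natCast, hm, Nat.cast_pow, sq] at h
    exact mul_self_eq_mul_self_iff.mp h
  choose ε hε using (fun a => show ∃ e : ℤ, S a = (u : ℂ) * e from
    (hS2 a).elim (fun h => ⟨1, by simp [h]⟩) (fun h => ⟨-1, by simp [h]⟩))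
  -- the inverse transform
  have hdual : ∀ x, ∑ a, (ε a : ℂ) * ψ (-x) ^ a.val = (u : ℂ) * v x := by
    intro x
    apply mul_left_cancel₀ hu0
    rw [Finset.mul_sum]
    have hpow : ∀ a : ZMod m, ψ (-x) ^ a.val = ψ (a * -x) := by
      intro a
      rw [← AddChar.map_nsmul_eq_pow]
      congr 1
      rw [nsmul_eq_mul, ZMod.natCast_zmod_val]
    simp only [← mul_assoc, ← hε, hpow, hS, Finset.sum_mul]
    rw [Finset.sum_comm]
    have : ∀ y, ∑ a, (v y : ℂ) * ψ (a * y) * ψ (a * -x)
        = (v y : ℂ) * if y = x then (m : ℂ) else 0 := by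
      intro y
      simp only [mul_assoc, ← AddChar.map_add_eq_mul, ← mul_add, ← sub_eq_add_neg]
      rw [← Finset.mul_sum, AddChar.sum_mulShift _ hψprim]
      simp [sub_eq_zero, ZMod.card]
    rw [Finset.sum_congr rfl (fun y _ => this y)]
    simp [hm, sq]
    ring
  have hord : ∀ x : ZMod m, IsPrimitiveRoot (ψ x) (orderOf (ψ x)) ∧ orderOf (ψ x) ∣ m := by
    intro x
    refine ⟨IsPrimitiveRoot.orderOf _, orderOf_dvd_of_pow_eq_one ?_⟩
    rw [← AddChar.map_nsmul_eq_pow]
    simp [ψ.map_zero_eq_one]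
  have hsame : ∀ x y, orderOf (ψ x) = orderOf (ψ y) → v x = v y := by
    intro x y hxy
    have hd : 0 < orderOf (ψ x) := Nat.pos_of_dvd_of_pos (hord x).2 (NeZero.pos m)
    set P : ℤ[X] := ∑ a : ZMod m, C (ε a) * X ^ a.val - C ((u : ℤ) * v (-x)) with hP
    have h1 : aeval (ψ x) P = 0 := by
      have := hdual (-x)
      rw [neg_neg] at this
      simp [hP, this]
    have h2 := aeval_eq_zero_of_conjugate hd (hord x).1 (hxy ▸ (hord y).1) P h1
    have h3 := hdual (-y)
    rw [neg_neg] at h3
    simp [hP, h3, sub_eq_zero, hu0, hsym] at h2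
    exact_mod_cast h2.symm
  -- the character sum at 1, grouped by orders
  have hS1 : (u : ℝ) ≤ ∑ d ∈ m.divisors,
      (if d = 1 then (1 : ℝ) else if Squarefree d then 2 else 0) := by
    have hnorm : ‖S 1‖ = (u : ℝ) := by rcases hS2 1 with h | h <;> simp [h]
    have hfib : S 1 = ∑ d ∈ m.divisors,
        ∑ x ∈ univ.filter (fun x => orderOf (ψ x) = d), (v x : ℂ) * ψ x := by
      rw [Finset.sum_fiberwise_of_maps_to (fun x _ =>
        Nat.mem_divisors.mpr ⟨(hord x).2, NeZero.ne m⟩)]
      simp [hS]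
    rw [← hnorm, hfib]
    refine (norm_sum_le _ _).trans (Finset.sum_le_sum (fun d hd => ?_))
    obtain ⟨hdm, -⟩ := Nat.mem_divisors.mp hd
    have hd0 : 0 < d := Nat.pos_of_dvd_of_pos hdm (NeZero.pos m)
    rcases (univ.filter (fun x => orderOf (ψ x) = d)).eq_empty_or_nonempty with he | ⟨z, hz⟩
    · rw [he]; simp only [Finset.sum_empty, norm_zero]; split_ifs <;> norm_num
    · have hz' := (Finset.mem_filter.mp hz).2
      have hconst : ∑ x ∈ univ.filter (fun x => orderOf (ψ x) = d), (v x : ℂ) * ψ x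
          = (v z : ℂ) * ∑ x ∈ univ.filter (fun x => orderOf (ψ x) = d), ψ x := by
        rw [Finset.mul_sum]
        refine Finset.sum_congr rfl (fun x hx => ?_)
        rw [hsame x z ((Finset.mem_filter.mp hx).2.trans hz'.symm)]
      have hbij : ∑ x ∈ univ.filter (fun x => orderOf (ψ x) = d), ψ x
          = ∑ w ∈ primitiveRoots d ℂ, w := by
        refine Finset.sum_bij (fun x _ => ψ x) ?_ ?_ ?_ (fun _ _ => rfl)
        · intro x hx
          rw [mem_primitiveRoots hd0, ← (Finset.mem_filter.mp hx).2]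
          exact (hord x).1
        · intro a _ b _ h
          simp only [ψ, AddChar.zmodChar_apply] at h
          exact ZMod.val_injective m (hζ.pow_inj (ZMod.val_lt a) (ZMod.val_lt b) h)
        · intro w hw
          rw [mem_primitiveRoots hd0] at hw
          obtain ⟨i, -, rfl⟩ := hζ.eq_pow_of_pow_eq_one (ξ := w) (by
            obtain ⟨k, hk⟩ := hdm
            rw [hk, pow_mul, hw.pow_eq_one, one_pow])
          refine ⟨(i : ZMod m), ?_, ?_⟩
          · simp [ψ, AddChar.zmodChar_apply', ← hw.eq_orderOf]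
          · simp [ψ, AddChar.zmodChar_apply']
      rw [hconst, hbij, sum_primitive_eq_moebius hd0, norm_mul, Complex.norm_intCast,
        Complex.norm_intCast]
      have hmu : |(ArithmeticFunction.moebius d : ℝ)| ≤ 1 := by
        exact_mod_cast ArithmeticFunction.abs_moebius_le_one
      split_ifs with h1 hsq
      · subst h1
        have hz0 : z = 0 := by
          have h1 := orderOf_eq_one_iff.mp hz'
          rw [← pow_zero ζ, AddChar.zmodChar_apply] at h1
          exact (ZMod.val_eq_zero z).mp (hζ.pow_inj (ZMod.val_lt z) (NeZero.pos m) h1)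
        subst hz0
        simpa using (show |((v 0 : ℤ) : ℝ)| ≤ 1 by exact_mod_cast hv0)
      · have := (show |((v z : ℤ) : ℝ)| ≤ 2 by exact_mod_cast hvx z)
        calc _ ≤ (2 : ℝ) * 1 := mul_le_mul this hmu (abs_nonneg _) (by norm_num)
          _ = 2 := mul_one 2
      · simp [ArithmeticFunction.moebius_eq_zero_of_not_squarefree hsq]
  have hbound : ∑ d ∈ m.divisors, (if d = 1 then (1 : ℝ) else if Squarefree d then 2 else 0)
      ≤ 2 * ((m.divisors.filter Squarefree).card : ℝ) - 1 := by
    have : ∀ d ∈ m.divisors, (if d = 1 then (1 : ℝ) else if Squarefree d then 2 else 0)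
        = (if Squarefree d then 2 else 0) - (if d = 1 then 1 else 0) := by
      intro d _
      rcases eq_or_ne d 1 with rfl | h
      · norm_num
      · simp [h]
    rw [Finset.sum_congr rfl this, Finset.sum_sub_distrib, Finset.sum_ite_eq',
      if_pos (Nat.one_mem_divisors.mpr (NeZero.ne m)), ← Finset.sum_filter, Finset.sum_const,
      nsmul_eq_mul]
    linarith
  have hcard : ((m.divisors.filter Squarefree).card : ℝ) ≤ (2 ^ m.primeFactors.card : ℕ) := by
    exact_mod_cast card_squarefree_divisors_le (NeZero.ne m)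
  have : ((u + 1 : ℕ) : ℝ) ≤ ((2 * 2 ^ m.primeFactors.card : ℕ) : ℝ) := by
    push_cast at hcard ⊢; linarith
  exact_mod_cast this

theorem symmetric_flat_small {m u : ℕ} [NeZero m] (hm : m = u ^ 2) (hu : Odd u)
    (hb : u + 1 ≤ 2 * 2 ^ m.primeFactors.card) : u = 1 ∨ u = 3 := by
  have hu0 : u ≠ 0 := by rintro rfl; simp at hu
  rw [hm, Nat.primeFactors_pow _ two_ne_zero] at hb
  have h3 : 3 ^ u.primeFactors.card ≤ u := by
    refine le_trans ?_ (Nat.le_of_dvd (Nat.pos_of_ne_zero hu0) (Nat.prod_primeFactors_dvd u))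
    refine Finset.pow_card_le_prod _ _ _ (fun p hp => ?_)
    have hpp := Nat.prime_of_mem_primeFactors hp
    have hodd : Odd p := hu.of_dvd_nat (Nat.dvd_of_mem_primeFactors hp)
    obtain ⟨k, hk⟩ := hodd
    have := hpp.two_le
    omega
  rcases h : u.primeFactors.card with _ | _ | k
  · rw [h] at hb; left; simp at hb; omega
  · rw [h] at hb h3; right; obtain ⟨a, ha⟩ := hu; simp at hb h3; omega
  · rw [h] at hb h3
    have h23 : 2 ^ k ≤ 3 ^ k := Nat.pow_le_pow_left (by norm_num) k
    have := Nat.one_le_two_pow (n := k)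
    simp only [pow_succ] at hb h3
    omega

end Vale.Agent.P033
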