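import Vale.Agent.P033.Turyn
import Vale.Agent.P033.Nine
import Vale.Agent.P033.Symmetric

/-
P033: a circulant Hadamard sign sequence whose 4-compression has a multiplier t with -1 among
its powers has order 1 or 4.
-/

namespace Vale.Agent.P033

open Finset

theorem four_signs {a b c d : ℤ} (ha : a = 1 ∨ a = -1) (hb : b = 1 ∨ b = -1)
    (hc : c = 1 ∨ c = -1) (hd : d = 1 ∨ d = -1) :
    ∃ p q : ℤ, a + c = 2 * p ∧ b + d = 2 * q ∧ (p = 0 ∨ p = 1 ∨ p = -1) ∧
      (q = 0 ∨ q = 1 ∨ q = -1) := by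
  exact ⟨(a + c) / 2, (b + d) / 2, by omega, by omega, by omega, by omega⟩

theorem Flat.half {n : ℕ} [NeZero n] {f g : ZMod n → ℤ} {c : ℤ} (hf : Flat f (4 * c))
    (hg : ∀ x, f x = 2 * g x) : Flat g c := by
  intro s
  have h := hf s
  simp only [hg] at h
  have : ∑ j, 2 * g j * (2 * g (j + s)) = 4 * ∑ j, g j * g (j + s) := by
    rw [Finset.mul_sum]; exact Finset.sum_congr rfl (fun j _ => by ring)
  rw [this] at h
  split_ifs at h ⊢ <;> omega

theorem symm_of_multiplier {m : ℕ} [NeZero m] (hm : Odd m) (V : ZMod m → ℤ) (t c : ZMod m)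
    (k : ℕ) (ht : t ^ k = -1) (hV : ∀ x, V (t * x + c) = V x) :
    ∃ a : ZMod m, ∀ x, V (-x + a) = V (x + a) := by
  have key : ∀ i : ℕ, ∃ e : ZMod m, ∀ x, V (t ^ i * x + e) = V x := by
    intro i
    induction i with
    | zero => exact ⟨0, fun x => by simp⟩
    | succ i ih =>
      obtain ⟨e, he⟩ := ih
      refine ⟨t * e + c, fun x => ?_⟩
      rw [← he x, ← hV (t ^ i * x + e)]
      congr 1
      ring
  obtain ⟨e, he⟩ := key k
  have h2 : IsUnit (2 : ZMod m) := by
    have := (ZMod.isUnit_iff_coprime 2 m).mpr (Nat.coprime_two_left.mpr hm)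
    simpa using this
  obtain ⟨w, hw⟩ := h2.exists_left_inv
  refine ⟨e * w, fun x => ?_⟩
  rw [← he (x + e * w), ht]
  congr 1
  linear_combination e * hw

theorem core {n m u : ℕ} [NeZero n] [NeZero m] (hnm : n = m * 4) (hm : m = u ^ 2)
    (h : ZMod n → ℤ) (hh : ∀ j, h j = 1 ∨ h j = -1) (hf : Flat h (n : ℤ))
    (t c : ZMod m) (k : ℕ) (ht : t ^ k = -1) (hd : m ∣ n)
    (hV : ∀ x, fold (ZMod.castHom hd (ZMod m)) h (t * x + c)
      = fold (ZMod.castHom hd (ZMod m)) h x) : u = 1 := by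
  have hoddh : ∀ j, Odd (h j) := fun j => by rcases hh j with e | e <;> rw [e] <;> decide
  have hu : Odd u := flat_odd (by rw [hnm, hm, mul_comm]) h hf hoddh
  have hmo : Odd m := hm ▸ hu.pow
  have hn2 : 2 ∣ n := ⟨2 * m, by omega⟩
  set φ := ZMod.castHom hd (ZMod m) with hφ
  set π := ZMod.castHom hn2 (ZMod 2) with hπ
  set χ : ZMod n → ℤ := fun j => if π j = 0 then 1 else -1 with hχdef
  have hχ : ∀ i j, χ i * χ (i + j) = χ j := by
    have key : ∀ a b : ZMod 2, (if a = 0 then (1 : ℤ) else -1) * (if a + b = 0 then 1 else -1)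
        = if b = 0 then 1 else -1 := by decide
    intro i j
    simpa [hχdef] using key (π i) (π j)
  set V := fold φ h with hVdef
  set W := comp φ χ h with hWdef
  have hnZ : (n : ℤ) = 4 * (m : ℤ) := by omega
  have hVflat : Flat V (4 * (m : ℤ)) := by rw [← hnZ]; exact hf.fold φ.toAddMonoidHom
  have hWflat : Flat W (4 * (m : ℤ)) := by
    intro s
    have := comp_mul φ.toAddMonoidHom χ h (n : ℤ) hχ hf s
    have hχ0 : χ 0 = 1 := by simp [hχdef]
    rw [hχ0, one_mul, hnZ] at this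
    exact this
  have hsum : ∀ y, ∃ p q : ℤ, (p = 0 ∨ p = 1 ∨ p = -1) ∧ (q = 0 ∨ q = 1 ∨ q = -1) ∧
      V y = 2 * (p + q) ∧ (W y = 2 * (p - q) ∨ W y = -(2 * (p - q))) := by
    intro y
    have hmpar : π ((m : ℕ) : ZMod n) = 1 := by
      rw [map_natCast]; exact ZMod.natCast_eq_one_iff_odd.mpr hmo
    have hpar : ∀ i : ℕ, π ((y.val + m * i : ℕ) : ZMod n) = π (y.val : ZMod n) + (i : ZMod 2) := by
      intro i; push_cast; rw [map_add, map_mul, hmpar, one_mul, map_natCast]
      simp [map_natCast]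
    obtain ⟨p, q, hp, hq, hp', hq'⟩ := four_signs
      (hh ((y.val + m * 0 : ℕ) : ZMod n)) (hh ((y.val + m * 1 : ℕ) : ZMod n))
      (hh ((y.val + m * 2 : ℕ) : ZMod n)) (hh ((y.val + m * 3 : ℕ) : ZMod n))
    refine ⟨p, q, hp', hq', ?_, ?_⟩
    · rw [hVdef, fold_eq_sum_range hnm hd]
      simp only [Finset.sum_range_succ, Finset.sum_range_zero]
      linarith
    · rw [hWdef, comp_eq_sum_range hnm hd]
      simp only [Finset.sum_range_succ, Finset.sum_range_zero, hχdef, hpar]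
      generalize π (y.val : ZMod n) = a
      generalize h ((y.val + m * 0 : ℕ) : ZMod n) = A at hp hq ⊢
      generalize h ((y.val + m * 1 : ℕ) : ZMod n) = B at hp hq ⊢
      generalize h ((y.val + m * 2 : ℕ) : ZMod n) = C at hp hq ⊢
      generalize h ((y.val + m * 3 : ℕ) : ZMod n) = D at hp hq ⊢
      have hsgn : ∀ a : ZMod 2, ∃ σ : ℤ, (σ = 1 ∨ σ = -1) ∧
          (if a + ((0 : ℕ) : ZMod 2) = 0 then (1 : ℤ) else -1) = σ ∧
          (if a + ((1 : ℕ) : ZMod 2) = 0 then (1 : ℤ) else -1) = -σ ∧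
          (if a + ((2 : ℕ) : ZMod 2) = 0 then (1 : ℤ) else -1) = σ ∧
          (if a + ((3 : ℕ) : ZMod 2) = 0 then (1 : ℤ) else -1) = -σ := by
        intro a
        fin_cases a
        · exact ⟨1, Or.inl rfl, rfl, rfl, rfl, rfl⟩
        · exact ⟨-1, Or.inr rfl, rfl, rfl, rfl, rfl⟩
      obtain ⟨σ, hσ, e0, e1, e2, e3⟩ := hsgn a
      rw [e0, e1, e2, e3]
      rcases hσ with rfl | rfl
      · left; linarith
      · right; linarith
  choose p q hp hq hVpq hWpq using hsum
  set v : ZMod m → ℤ := fun x => p x + q x with hv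
  have hvflat : Flat v (m : ℤ) := hVflat.half hVpq
  obtain ⟨a, ha⟩ := symm_of_multiplier hmo V t c k ht hV
  set v' : ZMod m → ℤ := fun x => v (x + a) with hv'
  have hv'flat : Flat v' (m : ℤ) := hvflat.shift a
  have hsym : ∀ x, v' (-x) = v' x := by
    intro x
    have := ha x
    rw [hVpq, hVpq] at this
    simpa [hv', hv] using mul_left_cancel₀ two_ne_zero this
  obtain ⟨hodd0, heven⟩ := parity hmo v' hv'flat hsym
  have hv0 : v' 0 = 1 ∨ v' 0 = -1 := by
    obtain ⟨b, hb⟩ := hodd0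
    have := hp (0 + a); have := hq (0 + a)
    simp only [hv', hv] at hb ⊢
    omega
  have hvx : ∀ x, x ≠ 0 → v' x = 0 ∨ v' x = 2 ∨ v' x = -2 := by
    intro x hx
    obtain ⟨b, hb⟩ := heven x hx
    have := hp (x + a); have := hq (x + a)
    simp only [hv', hv] at hb ⊢
    omega
  have hb := symmetric_flat_bound hm v' hv'flat hsym
    (by rcases hv0 with e | e <;> simp [e])
    (fun x => by
      rcases eq_or_ne x 0 with rfl | hx
      · rcases hv0 with e | e <;> simp [e]
      · rcases hvx x hx with e | e | e <;> simp [e])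
  rcases symmetric_flat_small hm hu hb with hu1 | hu3
  · exact hu1
  · exfalso
    subst hu3
    norm_num at hm
    subst hm
    choose w hw using fun y => show ∃ r : ℤ, W y = 2 * r from
      (hWpq y).elim (fun e => ⟨_, e⟩) (fun e => ⟨-(p y - q y), by rw [e]; ring⟩)
    have hwflat : Flat w ((9 : ℕ) : ℤ) := hWflat.half hw
    have hpm : ∀ y, w y = p y - q y ∨ w y = -(p y - q y) := fun y => by
      have := hw y
      rcases hWpq y with e | e
      · left; omega
      · right; omega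
    refine nine_pair v' (fun x => w (x + a)) (by simpa using hv'flat)
      (by simpa using hwflat.shift a) hsym hv0 hvx ?_ ?_ <;>
    · intro x
      have := hp (x + a); have := hq (x + a); have := hpm (x + a)
      simp only [hv', hv]
      omega

/-- The order of a circulant Hadamard first row is `1` or four times a square. -/
theorem order_cases {n : ℕ} [NeZero n] (h : ZMod n → ℤ) (hh : ∀ j, h j = 1 ∨ h j = -1)
    (hP : ∀ s : ZMod n, s ≠ 0 → ∑ j, h j * h (j + s) = 0) :
    Flat h (n : ℤ) ∧ (n = 1 ∨ ∃ u : ℕ, n = 4 * u ^ 2) := by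
  have hsq1 : ∀ j, h j * h j = 1 := fun j => by rcases hh j with e | e <;> simp [e]
  have hf : Flat h (n : ℤ) := by
    intro s
    split_ifs with hs
    · subst hs
      simp [hsq1]
    · exact hP s hs
  refine ⟨hf, ?_⟩
  rcases eq_or_ne n 1 with hn1 | hn1
  · exact Or.inl hn1
  right
  have hS : (∑ j, h j) ^ 2 = (n : ℤ) := by
    have h0 := (hf.fold (ZMod.castHom (one_dvd n) (ZMod 1)).toAddMonoidHom).sum_sq
    simpa [fold, comp, Subsingleton.elim _ (0 : ZMod 1)] using h0
  have : Nontrivial (ZMod n) := by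
    have : Fact (1 < n) := ⟨by have := NeZero.ne n; omega⟩
    exact ZMod.nontrivial n
  have hcast : ∀ z : ℤ, (z = 1 ∨ z = -1) → (z : ZMod 2) = 1 := by
    rintro z (rfl | rfl) <;> decide
  have hn2 : (n : ZMod 2) = 0 := by
    have h1 := congrArg (fun z : ℤ => (z : ZMod 2)) (hP 1 one_ne_zero)
    simpa [hcast _ (hh _), ZMod.card] using h1
  obtain ⟨n', hn'⟩ : 2 ∣ n := (ZMod.natCast_eq_zero_iff n 2).mp hn2
  obtain ⟨S, hSn⟩ : ∃ S : ℕ, n = S ^ 2 :=
    ⟨(∑ j, h j).natAbs, by
      have h1 : ((∑ j, h j).natAbs : ℤ) ^ 2 = (n : ℤ) := by rw [Int.natAbs_sq, hS]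
      exact_mod_cast h1.symm⟩
  rcases Nat.even_or_odd S with ⟨b, hb⟩ | hb
  · exact ⟨b, by rw [hSn, hb]; ring⟩
  · exfalso
    have : Odd n := hSn ▸ hb.pow
    exact Nat.not_even_iff_odd.mpr this ⟨n', by omega⟩

/-- A circulant Hadamard first row whose 4-compression is fixed up to a translate by a
multiplier `t` with `t ^ k = -1` has order 1 or 4. -/
theorem symmetric_compression {n : ℕ} [NeZero n] (h : ZMod n → ℤ)
    (hh : ∀ j, h j = 1 ∨ h j = -1)
    (hP : ∀ s : ZMod n, s ≠ 0 → ∑ j, h j * h (j + s) = 0)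
    (hV : ∃ (t c : ZMod (n / 4)) (k : ℕ), t ^ k = -1 ∧ ∀ x : ZMod (n / 4),
      (∑ j ∈ univ.filter (fun j : ZMod n => (j.val : ZMod (n / 4)) = t * x + c), h j)
        = ∑ j ∈ univ.filter (fun j : ZMod n => (j.val : ZMod (n / 4)) = x), h j) :
    n = 1 ∨ n = 4 := by
  obtain ⟨hf, rfl | ⟨u, hu⟩⟩ := order_cases h hh hP
  · exact Or.inl rfl
  right
  obtain ⟨t, c, k, ht, hV⟩ := hV
  have hm : n / 4 = u ^ 2 := by rw [hu]; omega
  have : NeZero (n / 4) := ⟨by
    intro e
    have := NeZero.ne n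
    omega⟩
  have hnm : n = n / 4 * 4 := by omega
  have hd : n / 4 ∣ n := ⟨4, hnm⟩
  have hu1 : u = 1 := core hnm hm h hh hf t c k ht hd (fun x => by
    have hfold : ∀ y, fold (ZMod.castHom hd (ZMod (n / 4))) h y
        = ∑ j ∈ univ.filter (fun j : ZMod n => (j.val : ZMod (n / 4)) = y), h j := by
      intro y
      unfold fold comp
      simp only [one_mul, ZMod.castHom_apply, ZMod.cast_eq_val]
    rw [hfold, hfold]; exact hV x)
  rw [hu, hu1]; norm_num

end Vale.Agent.P033
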