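import Vale.Agent.P033.Basic
import Vale.Agent.P033.Roots

/-
P033: divisibility by powers of two of the odd part of a flat sequence of length 2^(k+1),
and the consequence that a circulant Hadamard order 4u^2 has u odd (Turyn).
-/

namespace Vale.Agent.P033

open Finset Polynomial

theorem sum_zmod_range {M : ℕ} [NeZero M] {R : Type*} [AddCommMonoid R] (f : ZMod M → R) :
    ∑ x, f x = ∑ i ∈ range M, f (i : ZMod M) := by
  refine Finset.sum_nbij' (fun x => x.val) (fun i => (i : ZMod M)) ?_ ?_ ?_ ?_ ?_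
  · intro x _; simpa using ZMod.val_lt x
  · intro i _; simp
  · intro x _; simp
  · intro i hi; simpa using ZMod.val_cast_of_lt (mem_range.mp hi)
  · intro x _; simp

variable {k : ℕ} {ζ : ℂ}

theorem zeta_pow_half (hζ : IsPrimitiveRoot ζ (2 ^ (k + 1))) : ζ ^ (2 ^ k) = -1 :=
  (hζ.pow (by positivity) (pow_succ 2 k)).eq_neg_one_of_two_right

theorem aeval_zero_even (hζ : IsPrimitiveRoot ζ (2 ^ (k + 1))) (P : ℤ[X])
    (h : aeval ζ P = 0) : Even (P.eval 1) := by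
  have hdvd : cyclotomic (2 ^ (k + 1)) ℤ ∣ P := by
    rw [Polynomial.cyclotomic_eq_minpoly hζ (by positivity)]
    exact minpoly.isIntegrallyClosed_dvd (hζ.isIntegral (by positivity)) h
  obtain ⟨Q, rfl⟩ := hdvd
  have : Fact (Nat.Prime 2) := ⟨Nat.prime_two⟩
  rw [eval_mul, eval_one_cyclotomic_prime_pow]
  exact ⟨eval 1 Q, by push_cast; ring⟩

theorem two_eq_pi_pow (hζ : IsPrimitiveRoot ζ (2 ^ (k + 1))) :
    ∃ W : ℤ[X], (2 : ℂ) = (ζ - 1) ^ (2 ^ k) * aeval ζ W := by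
  have hfact : Fact (Nat.Prime 2) := ⟨Nat.prime_two⟩
  have hprod : (2 : ℂ) = ∏ μ ∈ primitiveRoots (2 ^ (k + 1)) ℂ, (1 - μ) := by
    have h1 := congrArg (eval (1 : ℂ)) (cyclotomic_eq_prod_X_sub_primitiveRoots hζ)
    rw [eval_one_cyclotomic_prime_pow, eval_prod] at h1
    simpa using h1
  have hcard : (primitiveRoots (2 ^ (k + 1)) ℂ).card = 2 ^ k := by
    rw [Complex.card_primitiveRoots, Nat.totient_prime_pow Nat.prime_two (by omega)]
    simp
  suffices h : ∀ S : Finset ℂ, S ⊆ primitiveRoots (2 ^ (k + 1)) ℂ →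
      ∃ W : ℤ[X], ∏ μ ∈ S, (1 - μ) = (ζ - 1) ^ S.card * aeval ζ W by
    obtain ⟨W, hW⟩ := h _ subset_rfl
    exact ⟨W, by rw [hprod, hW, hcard]⟩
  intro S hS
  induction S using Finset.induction_on with
  | empty => exact ⟨1, by simp⟩
  | insert a S ha ih =>
    obtain ⟨W, hW⟩ := ih (fun x hx => hS (Finset.mem_insert_of_mem hx))
    have hap : IsPrimitiveRoot a (2 ^ (k + 1)) :=
      (mem_primitiveRoots (by positivity)).mp (hS (Finset.mem_insert_self a S))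
    have : NeZero (2 ^ (k + 1)) := ⟨by positivity⟩
    obtain ⟨i, _, hi⟩ := hζ.eq_pow_of_pow_eq_one hap.pow_eq_one
    refine ⟨-(∑ l ∈ range i, X ^ l) * W, ?_⟩
    rw [Finset.prod_insert ha, Finset.card_insert_of_notMem ha, hW, ← hi]
    have hg := geom_sum_mul ζ i
    simp only [map_mul, map_neg, map_sum, map_pow, aeval_X]
    linear_combination ((ζ - 1) ^ S.card * aeval ζ W) * hg

theorem pi_pow_eq_two (hζ : IsPrimitiveRoot ζ (2 ^ (k + 1))) :
    ∃ w : ℤ[X], (ζ - 1) ^ (2 ^ k) = 2 * aeval ζ w := by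
  obtain ⟨r, hr⟩ := exists_add_pow_prime_pow_eq Nat.prime_two (X - 1 : ℤ[X]) 1 k
  have h := congrArg (aeval ζ) hr
  simp only [sub_add_cancel, one_pow, map_pow, aeval_X, map_add, map_mul, map_sub, map_one,
    map_natCast, zeta_pow_half hζ] at h
  refine ⟨-1 - (X - 1) * r, ?_⟩
  simp only [map_sub, map_neg, map_mul, map_one, aeval_X]
  push_cast at h
  linear_combination -h

theorem pi_pow_dvd (hζ : IsPrimitiveRoot ζ (2 ^ (k + 1))) :
    ∀ (a : ℕ) (P R : ℤ[X]), aeval ζ P * aeval ζ⁻¹ P = (ζ - 1) ^ (2 * a) * aeval ζ R →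
      ∃ Q : ℤ[X], aeval ζ P = (ζ - 1) ^ a * aeval ζ Q := by
  intro a
  induction a with
  | zero => exact fun P _ _ => ⟨P, by simp⟩
  | succ a ih =>
    intro P R h
    obtain ⟨Q, hQ⟩ := ih P ((X - 1) ^ 2 * R) (by
      rw [h]; simp only [map_mul, map_pow, map_sub, map_one, aeval_X]; ring)
    have hM : (0 : ℕ) < 2 ^ (k + 1) := by positivity
    have hinv : IsPrimitiveRoot ζ⁻¹ (2 ^ (k + 1)) := hζ.inv
    have hQ' : aeval ζ⁻¹ P = (ζ⁻¹ - 1) ^ a * aeval ζ⁻¹ Q := by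
      have h0 := aeval_eq_zero_of_conjugate hM hζ hinv (P - (X - 1) ^ a * Q) (by simp [hQ])
      simpa [sub_eq_zero] using h0
    have hπ : ζ - 1 ≠ 0 := sub_ne_zero.mpr (hζ.ne_one (Nat.one_lt_two_pow (by omega)))
    have hz0 : ζ ≠ 0 := hζ.ne_zero hM.ne'
    set e := 2 ^ (k + 1) - 1
    have hinv' : ζ⁻¹ = ζ ^ e := by
      refine (eq_inv_of_mul_eq_one_left ?_).symm
      rw [← pow_succ, show e + 1 = 2 ^ (k + 1) by omega, hζ.pow_eq_one]
    have hπ' : ζ⁻¹ - 1 = -(ζ ^ e) * (ζ - 1) := by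
      rw [← hinv']; field_simp; ring
    have hmain : aeval ζ Q * aeval (ζ ^ e) Q * (-(ζ ^ e)) ^ a
        = (ζ - 1) ^ 2 * aeval ζ R := by
      rw [hQ, hQ', hπ', mul_pow, hinv'] at h
      apply mul_left_cancel₀ (pow_ne_zero (2 * a) hπ)
      linear_combination (exp := 1) h
    have hev : Even ((Q * Q.comp (X ^ e) * (-(X ^ e)) ^ a - (X - 1) ^ 2 * R).eval 1) := by
      apply aeval_zero_even hζ
      simp [aeval_comp, hmain]
    have hQ1 : Even (Q.eval 1) := by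
      have h2 : ¬ Even ((-1 : ℤ) ^ a) := by
        rcases neg_one_pow_eq_or ℤ a with h | h <;> rw [h] <;> decide
      have h3 : Even (eval 1 Q * eval 1 Q * (-1 : ℤ) ^ a) := by simpa [eval_comp] using hev
      rcases Int.even_mul.mp h3 with h4 | h4
      · rcases Int.even_mul.mp h4 with h5 | h5 <;> exact h5
      · exact absurd h4 h2
    obtain ⟨c, hc⟩ := hQ1
    obtain ⟨W, hW⟩ := two_eq_pi_pow hζ
    obtain ⟨T, hT⟩ := X_sub_C_dvd_sub_C_eval (a := (1 : ℤ)) (p := Q)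
    have hQT := congrArg (aeval ζ) hT
    simp only [map_sub, map_mul, aeval_X, aeval_C, hc] at hQT
    refine ⟨T + C c * (X - 1) ^ (2 ^ k - 1) * W, ?_⟩
    rw [hQ, pow_succ, mul_assoc]
    congr 1
    simp only [map_add, map_mul, map_pow, map_sub, map_one, aeval_X, aeval_C]
    have hpow : (ζ - 1) * (ζ - 1) ^ (2 ^ k - 1) = (ζ - 1) ^ (2 ^ k) := by
      rw [← pow_succ', Nat.sub_add_cancel Nat.one_le_two_pow]
    simp only [algebraMap_int_eq, eq_intCast, Int.cast_add, Int.cast_one] at hQT ⊢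
    linear_combination hQT + (c : ℂ) * hW - (c : ℂ) * aeval ζ W * hpow

/-- If a sequence of length `2^(k+1)` is flat with value divisible by `4^j`, its antisymmetric
part is divisible by `2^j`. -/
theorem two_pow_dvd_diff {k j : ℕ} {c : ℤ} (F : ZMod (2 ^ (k + 1)) → ℤ) (hF : Flat F c)
    (hc : (4 : ℤ) ^ j ∣ c) (x : ZMod (2 ^ (k + 1))) :
    (2 : ℤ) ^ j ∣ F x - F (x + ((2 ^ k : ℕ) : ZMod (2 ^ (k + 1)))) := by
  obtain ⟨r0, hr0⟩ := hc
  have hM : (2 : ℕ) ^ (k + 1) ≠ 0 := by positivity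
  have hζ := Complex.isPrimitiveRoot_exp _ hM
  set ζ := Complex.exp (2 * Real.pi * Complex.I / ((2 ^ (k + 1) : ℕ) : ℂ))
  set N : ℕ := 2 ^ k with hN
  have hNN : 2 ^ (k + 1) = N + N := by rw [hN, pow_succ]; ring
  set P : ℤ[X] := ∑ i ∈ range N, C (F i - F (i + (N : ℕ))) * X ^ i with hP
  have hfold : ∀ z : ℂ, z ^ N = -1 →
      ∑ i ∈ range (2 ^ (k + 1)), (F i : ℂ) * z ^ i = aeval z P := by
    intro z hz
    rw [show range (2 ^ (k + 1)) = range (N + N) from congrArg range hNN, Finset.sum_range_add, hP, map_sum, ← Finset.sum_add_distrib]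
    refine Finset.sum_congr rfl (fun i _ => ?_)
    rw [pow_add z N i, hz, show ((N + i : ℕ) : ZMod (2 ^ (k + 1))) = (i : ZMod (2 ^ (k + 1))) + ((N : ℕ) : ZMod (2 ^ (k + 1))) by
      push_cast; ring]
    simp only [map_mul, map_pow, aeval_X, eq_intCast, map_sub, map_intCast]
    ring
  let ψ : AddChar (ZMod (2 ^ (k + 1))) ℂ := AddChar.zmodChar _ hζ.pow_eq_one
  have hψ : ∀ i : ℕ, ψ (i : ZMod (2 ^ (k + 1))) = ζ ^ i := fun i => by
    simp [ψ, AddChar.zmodChar_apply']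
  have hψ' : ∀ i : ℕ, ψ (-(i : ZMod (2 ^ (k + 1)))) = (ζ⁻¹) ^ i := fun i => by
    rw [AddChar.map_neg_eq_inv, hψ, inv_pow]
  have hcm := hF.char_mul ψ
  rw [sum_zmod_range, sum_zmod_range (fun x => (F x : ℂ) * ψ (-x))] at hcm
  simp only [hψ, hψ'] at hcm
  have hzN : ζ ^ N = -1 := zeta_pow_half hζ
  rw [hfold ζ hzN, hfold ζ⁻¹ (by rw [inv_pow, hzN]; norm_num)] at hcm
  obtain ⟨W, hW⟩ := two_eq_pi_pow hζ
  obtain ⟨w, hw⟩ := pi_pow_eq_two hζ
  obtain ⟨Q, hQ⟩ := pi_pow_dvd hζ (N * j) P (W ^ (2 * j) * C r0) (by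
    rw [hcm, hr0]
    have h4 : (4 : ℂ) ^ j = ((ζ - 1) ^ N * aeval ζ W) ^ (2 * j) := by
      rw [← hW, pow_mul]; norm_num
    simp only [map_mul, map_pow, eq_intCast, map_intCast]
    push_cast
    rw [h4, mul_pow, ← pow_mul, show N * (2 * j) = 2 * (N * j) by ring]
    ring)
  set Φ := cyclotomic (2 ^ (k + 1)) ℤ
  have hΦdeg : Φ.degree = (N : WithBot ℕ) := by
    rw [degree_cyclotomic, Nat.totient_prime_pow Nat.prime_two (by omega)]
    simp [hN]
  have hΦ0 : aeval ζ Φ = 0 := by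
    rw [show Φ = minpoly ℤ ζ from cyclotomic_eq_minpoly hζ (by positivity)]
    exact minpoly.aeval ℤ ζ
  set Q' := (w ^ j * Q) %ₘ Φ with hQ'
  have hmonic : Φ.Monic := cyclotomic.monic _ _
  have hev : aeval ζ (P - C ((2 : ℤ) ^ j) * Q') = 0 := by
    have h1 : aeval ζ Q' = aeval ζ (w ^ j * Q) := aeval_modByMonic_eq_self_of_root hΦ0
    rw [map_sub, map_mul, h1, hQ, pow_mul, hw, mul_pow]
    simp [map_ofNat]
    ring
  have hPdeg : P.degree < (N : WithBot ℕ) := by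
    refine lt_of_le_of_lt (degree_sum_le _ _) ((Finset.sup_lt_iff (WithBot.bot_lt_coe N)).mpr ?_)
    intro i hi
    refine lt_of_le_of_lt (degree_C_mul_X_pow_le i _) ?_
    exact WithBot.coe_lt_coe.mpr (mem_range.mp hi)
  have hzero : P - C ((2 : ℤ) ^ j) * Q' = 0 := by
    apply eq_zero_of_dvd_of_degree_lt (p := Φ)
    · rw [show Φ = minpoly ℤ ζ from cyclotomic_eq_minpoly hζ (by positivity)]
      exact minpoly.isIntegrallyClosed_dvd (hζ.isIntegral (by positivity)) hev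
    · rw [hΦdeg]
      refine lt_of_le_of_lt (degree_sub_le _ _) (max_lt hPdeg ?_)
      rw [degree_C_mul (by positivity : ((2 : ℤ) ^ j) ≠ 0)]
      rw [← hΦdeg]
      exact degree_modByMonic_lt _ hmonic
  have hlow : ∀ i < N, (2 : ℤ) ^ j ∣ F i - F (i + (N : ℕ)) := by
    intro i hi
    have h1 := congrArg (fun p => p.coeff i) (sub_eq_zero.mp hzero)
    simp only [hP, finsetSum_coeff, coeff_C_mul, coeff_X_pow, mul_ite, mul_one, mul_zero] at h1
    rw [Finset.sum_ite_eq, if_pos (mem_range.mpr hi)] at h1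
    exact ⟨_, h1⟩
  rcases lt_or_ge x.val N with hx | hx
  · simpa using hlow x.val hx
  · obtain ⟨i, hi⟩ := Nat.exists_eq_add_of_le hx
    have hiN : i < N := by have := ZMod.val_lt x; omega
    have hxi : x = (i : ZMod (2 ^ (k + 1))) + (N : ℕ) := by
      rw [← ZMod.natCast_zmod_val x, hi]; push_cast; ring
    have hNN0 : ((N : ℕ) : ZMod (2 ^ (k + 1))) + (N : ℕ) = 0 := by
      rw [← Nat.cast_add, ← hNN, ZMod.natCast_self]
    rw [hxi, add_assoc, hNN0, add_zero, dvd_sub_comm]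
    exact hlow i hiN

end Vale.Agent.P033
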