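import Vale.Agent.P033.Fibre
import Vale.Agent.P033.TwoPower

/-
P033: the order of a sign sequence with flat autocorrelation is 1 or 4 u^2 with u odd (Turyn).
-/

namespace Vale.Agent.P033

open Finset

theorem no_even_level {s r : ℕ} (hs : 1 ≤ s) (hr : Odd r) (F : ZMod (2 ^ (s + 1 + 1)) → ℤ)
    (hF : Flat F ((4 : ℤ) ^ (s + 1) * (r : ℤ) ^ 2))
    (hodd : ∀ x, ∃ o : ℤ, Odd o ∧ F x = 2 ^ s * o) : False := by
  set N := 2 ^ (s + 1) with hN
  have hMN : 2 ^ (s + 1 + 1) = N + N := by rw [hN, pow_succ]; ring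
  have hN0 : 0 < N := by rw [hN]; positivity
  choose o ho hoF using hodd
  choose e he using two_pow_dvd_diff F hF (dvd_mul_right _ _)
  set σ : ZMod (2 ^ (s + 1 + 1)) := ((N : ℕ) : ZMod (2 ^ (s + 1 + 1))) with hσ
  have hσ2 : σ + σ = 0 := by rw [hσ, ← Nat.cast_add, ← hMN, ZMod.natCast_self]
  have hσ0 : σ ≠ 0 := by
    intro h
    rw [hσ, ZMod.natCast_eq_zero_iff] at h
    have := Nat.le_of_dvd hN0 h
    omega
  set c : ℤ := (4 : ℤ) ^ (s + 1) * (r : ℤ) ^ 2 with hc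
  have h0 : ∑ x, F x * F (x + σ) = 0 := by simpa [hσ0] using hF σ
  have hsq := hF.sum_sq
  have hsqs := (hF.shift σ).sum_sq
  have hsum : ∑ x, ((F x + F (x + σ)) ^ 2 + (F x - F (x + σ)) ^ 2) = 4 * c := by
    have : ∀ x, (F x + F (x + σ)) ^ 2 + (F x - F (x + σ)) ^ 2
        = 2 * F x ^ 2 + 2 * F (x + σ) ^ 2 := fun x => by ring
    rw [Finset.sum_congr rfl (fun x _ => this x), Finset.sum_add_distrib, ← Finset.mul_sum,
      ← Finset.mul_sum, hsq, hsqs]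
    ring
  set G : ZMod (2 ^ (s + 1 + 1)) → ℤ := fun x => (o x - e x) ^ 2 + e x ^ 2 with hG
  have hGF : ∀ x, (F x + F (x + σ)) ^ 2 + (F x - F (x + σ)) ^ 2 = 4 ^ (s + 1) * G x := by
    intro x
    have h1 : F (x + σ) = F x - 2 ^ (s + 1) * e x := by have := he x; linarith
    have h4 : (4 : ℤ) ^ (s + 1) = ((2 : ℤ) ^ (s + 1)) ^ 2 := by
      rw [← pow_mul, mul_comm (s + 1) 2, pow_mul]; norm_num
    rw [h1, hoF x, hG, h4, pow_succ (2 : ℤ) s]
    ring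
  have hGper : ∀ x, G (x + σ) = G x := by
    intro x
    have h1 := hGF (x + σ)
    rw [add_assoc x σ σ, hσ2, add_zero] at h1
    have h2 := hGF x
    apply mul_left_cancel₀ (pow_ne_zero (s + 1) (by norm_num : (4 : ℤ) ≠ 0))
    rw [← h1, ← h2]; ring
  have hGsum : ∑ i ∈ range N, G (i : ZMod (2 ^ (s + 1 + 1))) = 2 * (r : ℤ) ^ 2 := by
    have hper : ∀ i : ℕ, G ((N + i : ℕ) : ZMod (2 ^ (s + 1 + 1))) = G (i : ZMod (2 ^ (s + 1 + 1))) := fun i => by
      rw [← hGper (i : ZMod (2 ^ (s + 1 + 1))), hσ]; push_cast; rw [add_comm]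
    rw [Finset.sum_congr rfl (fun x _ => hGF x), ← Finset.mul_sum, sum_zmod_range,
      show range (2 ^ (s + 1 + 1)) = range (N + N) from congrArg range hMN, Finset.sum_range_add] at hsum
    simp only [hper] at hsum
    rw [hc] at hsum
    have h4 : (4 : ℤ) ^ (s + 1) ≠ 0 := pow_ne_zero _ (by norm_num)
    apply mul_left_cancel₀ h4
    linarith
  have hmod : ∀ x, (4 : ℤ) ∣ G x - 1 := by
    intro x
    obtain ⟨a, ha⟩ := ho x
    rcases Int.even_or_odd (e x) with ⟨b, hb⟩ | ⟨b, hb⟩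
    · refine ⟨(a - b) ^ 2 + (a - b) + b ^ 2, ?_⟩
      simp only [hG]; rw [ha, hb]; ring
    · refine ⟨(a - b) ^ 2 + b ^ 2 + b, ?_⟩
      simp only [hG]; rw [ha, hb]; ring
  have h4N : (4 : ℤ) ∣ 2 * (r : ℤ) ^ 2 - (N : ℤ) := by
    rw [← hGsum]
    have : ∑ i ∈ range N, G (i : ZMod (2 ^ (s + 1 + 1))) - (N : ℤ)
        = ∑ i ∈ range N, (G (i : ZMod (2 ^ (s + 1 + 1))) - 1) := by simp
    rw [this]
    exact Finset.dvd_sum (fun i _ => hmod _)
  have hN4 : (4 : ℤ) ∣ (N : ℤ) := by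
    have : (2 : ℕ) ^ 2 ∣ N := pow_dvd_pow 2 (by omega)
    exact_mod_cast this
  obtain ⟨a, ha⟩ := hr
  have h4r : (4 : ℤ) ∣ 2 * (r : ℤ) ^ 2 := by simpa using dvd_add h4N hN4
  obtain ⟨q, hq⟩ := h4r
  rw [ha] at hq
  push_cast at hq
  ring_nf at hq
  omega

theorem flat_odd {n u : ℕ} [NeZero n] (hn : n = 4 * u ^ 2) (f : ZMod n → ℤ)
    (hf : Flat f (n : ℤ)) (hodd : ∀ j, Odd (f j)) : Odd u := by
  by_contra hu
  rw [Nat.not_odd_iff_even] at hu
  have hu0 : u ≠ 0 := by rintro rfl; simpa [hn] using NeZero.ne n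
  obtain ⟨s, r, hr, hus⟩ := Nat.exists_eq_two_pow_mul_odd hu0
  have hs : 1 ≤ s := by
    by_contra hs
    have : s = 0 := by omega
    subst this
    simp at hus
    subst hus
    exact Nat.not_even_iff_odd.mpr hr hu
  have hn' : n = 2 ^ (2 * s + 1 + 1) * r ^ 2 := by
    rw [hn, hus, mul_pow, ← pow_mul, show 2 * s + 1 + 1 = s * 2 + 2 by ring, pow_add]; ring
  set c : ℤ := (4 : ℤ) ^ (s + 1) * (r : ℤ) ^ 2 with hc
  have hnc : (n : ℤ) = c := by
    have h4 : (4 : ℤ) ^ (s + 1) = ((2 : ℤ) ^ (s + 1)) ^ 2 := by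
      rw [← pow_mul, mul_comm (s + 1) 2, pow_mul]; norm_num
    rw [hc, hn', h4]
    push_cast
    ring
  rw [hnc] at hf
  suffices key : ∀ i k, i + k = 2 * s + 1 → i ≤ s →
      ∃ F : ZMod (2 ^ (k + 1)) → ℤ, Flat F c ∧ ∀ x, ∃ o : ℤ, Odd o ∧ F x = 2 ^ i * o by
    obtain ⟨F, hF, hFo⟩ := key s (s + 1) (by ring) le_rfl
    exact no_even_level hs hr F hF hFo
  intro i
  induction i with
  | zero =>
    intro k hk _
    obtain rfl : k = 2 * s + 1 := by omega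
    have hd : 2 ^ (2 * s + 1 + 1) ∣ n := ⟨r ^ 2, hn'⟩
    refine ⟨fold (ZMod.castHom hd (ZMod _)) f, hf.fold (ZMod.castHom hd _).toAddMonoidHom,
      fun x => ⟨_, ?_, (one_mul _).symm⟩⟩
    rw [fold_eq_sum_range hn' hd]
    exact odd_sum_of_odd hr.pow _ (fun i => hodd _)
  | succ i ih =>
    intro k hk his
    obtain ⟨F, hF, hFo⟩ := ih (k + 1) (by omega) (by omega)
    have hd : 2 ^ (k + 1) ∣ 2 ^ (k + 1 + 1) := pow_dvd_pow 2 (by omega)
    refine ⟨fold (ZMod.castHom hd (ZMod _)) F, hF.fold (ZMod.castHom hd _).toAddMonoidHom,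
      fun y => ?_⟩
    rw [fold_eq_sum_range (pow_succ 2 (k + 1)) hd]
    simp only [Finset.sum_range_succ, Finset.sum_range_zero, zero_add, mul_zero, add_zero,
      mul_one]
    push_cast
    set x : ZMod (2 ^ (k + 1 + 1)) := ((y.val : ℕ) : ZMod (2 ^ (k + 1 + 1))) with hx
    obtain ⟨o, ho, hox⟩ := hFo x
    have hdiv := two_pow_dvd_diff F hF (dvd_mul_right ((4 : ℤ) ^ (s + 1)) _) x
    push_cast at hdiv
    obtain ⟨e, he⟩ := hdiv
    obtain ⟨t, ht⟩ : ∃ t, s = i + 1 + t := ⟨s - (i + 1), by omega⟩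
    refine ⟨o - 2 * (2 ^ t * e), ho.sub_even (even_two_mul _), ?_⟩
    rw [ht] at he
    simp only [pow_succ, pow_add] at he ⊢
    rw [hox] at he ⊢
    linear_combination -he

end Vale.Agent.P033
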